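import Mathlib
import Vale.Agent.Lib.P194.FreeSofic

/-!
# Zero divisors and free normal subgroups

Let `N` be a normal subgroup of `G` which is a free group, `K` a commutative ring, and `I` the
kernel of `K[G] → K[G ⧸ N]`.  Using Fox derivatives we show that `I` is free as a right
`K[G]`-module on the elements `x - 1`, `x` a free generator of `N`.  Together with the fact that
the powers of `I` have zero intersection this gives: if `K[G ⧸ N]` has no zero divisors, then
neither has `K[G]`.
-/

namespace Vale.Agent.Lib.P201

open MonoidAlgebra Vale.Agent.Lib.P194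
open scoped Pointwise

universe u

noncomputable section

/-- Pairs `(g, a)` with product `(g, a) (h, b) = (g h, a h + b)`. -/
@[ext] structure FoxPair (K : Type*) [CommRing K] (G : Type*) [Group G] where
  fst : G
  snd : MonoidAlgebra K G

namespace FoxPair

variable {K : Type*} [CommRing K] {G : Type*} [Group G]

instance : Mul (FoxPair K G) := ⟨fun p q => ⟨p.fst * q.fst, p.snd * single q.fst 1 + q.snd⟩⟩
instance : One (FoxPair K G) := ⟨⟨1, 0⟩⟩
instance : Inv (FoxPair K G) := ⟨fun p => ⟨p.fst⁻¹, -(p.snd * single p.fst⁻¹ 1)⟩⟩

theorem mul_fst (p q : FoxPair K G) : (p * q).fst = p.fst * q.fst := rfl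
theorem mul_snd (p q : FoxPair K G) : (p * q).snd = p.snd * single q.fst 1 + q.snd := rfl
theorem one_fst : (1 : FoxPair K G).fst = 1 := rfl
theorem one_snd : (1 : FoxPair K G).snd = 0 := rfl
theorem inv_fst (p : FoxPair K G) : p⁻¹.fst = p.fst⁻¹ := rfl
theorem inv_snd (p : FoxPair K G) : p⁻¹.snd = -(p.snd * single p.fst⁻¹ 1) := rfl

instance : Group (FoxPair K G) :=
  Group.ofLeftAxioms
    (fun p q r => by
      ext
      · simp only [mul_fst, mul_assoc]
      · simp only [mul_snd, mul_fst]
        rw [add_mul, mul_assoc, single_mul_single, mul_one, add_assoc])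
    (fun p => by
      ext
      · simp only [mul_fst, one_fst, one_mul]
      · simp only [mul_snd, one_snd, zero_mul, zero_add])
    (fun p => by
      ext
      · simp only [mul_fst, inv_fst, one_fst, inv_mul_cancel]
      · simp only [mul_snd, inv_snd, one_snd]
        rw [neg_mul, mul_assoc, single_mul_single, inv_mul_cancel, mul_one, ← one_def, mul_one,
          neg_add_cancel])

/-- The first projection, as a group homomorphism. -/
def fstHom : FoxPair K G →* G where
  toFun := FoxPair.fst
  map_one' := rfl
  map_mul' _ _ := rfl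

end FoxPair

section Fox

variable (K : Type*) [CommRing K] {G : Type u} [Group G] (N : Subgroup G) [IsFreeGroup N]

open Classical in
/-- The homomorphism `u ↦ (u, ∂ₓ u)` given by the Fox derivative with respect to the
generator `x`. -/
noncomputable def foxHom (x : IsFreeGroup.Generators N) : N →* FoxPair K G :=
  IsFreeGroup.lift (fun y => ⟨((IsFreeGroup.of y : N) : G), if y = x then 1 else 0⟩)

theorem foxHom_fst (x : IsFreeGroup.Generators N) (u : N) : (foxHom K N x u).fst = (u : G) := by
  have h : (FoxPair.fstHom (K := K) (G := G)).comp (foxHom K N x) = N.subtype := by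
    apply IsFreeGroup.ext_hom
    intro a
    simp [foxHom, FoxPair.fstHom]
  exact DFunLike.congr_fun h u

/-- The (right) Fox derivative of `u ∈ N` with respect to the generator `x`. -/
noncomputable def fox (x : IsFreeGroup.Generators N) (u : N) : MonoidAlgebra K G :=
  (foxHom K N x u).snd

theorem fox_mul (x : IsFreeGroup.Generators N) (u v : N) :
    fox K N x (u * v) = fox K N x u * single (v : G) 1 + fox K N x v := by
  unfold fox
  rw [map_mul, FoxPair.mul_snd, foxHom_fst]

open Classical in
theorem fox_of (x y : IsFreeGroup.Generators N) :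
    fox K N x (IsFreeGroup.of y) = if y = x then 1 else 0 := by
  unfold fox foxHom
  rw [IsFreeGroup.lift_of]

end Fox

section Deriv

variable (K : Type*) [CommRing K] {G : Type u} [Group G] (N : Subgroup G) [N.Normal]

/-- A chosen representative of the coset of `g` modulo `N`. -/
def rep (g : G) : G := (QuotientGroup.mk g : G ⧸ N).out

theorem mk_rep (g : G) : (QuotientGroup.mk (rep N g) : G ⧸ N) = QuotientGroup.mk g :=
  QuotientGroup.out_eq' _

theorem mul_rep_inv_mem (g : G) : g * (rep N g)⁻¹ ∈ N := by
  have h := mk_rep N g
  rw [QuotientGroup.eq] at h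
  have h2 := Subgroup.Normal.conj_mem inferInstance _ h (rep N g)
  simpa [mul_assoc] using h2

/-- The `N`-part `g * (rep g)⁻¹` of `g`. -/
def nPart (g : G) : N := ⟨g * (rep N g)⁻¹, mul_rep_inv_mem N g⟩

theorem rep_mul_left (u : N) (g : G) : rep N ((u : G) * g) = rep N g := by
  unfold rep
  congr 1
  rw [QuotientGroup.mk_mul, (QuotientGroup.eq_one_iff (u : G)).mpr u.2, one_mul]

theorem nPart_mul_left (u : N) (g : G) : nPart N ((u : G) * g) = u * nPart N g := by
  apply Subtype.ext
  simp [nPart, rep_mul_left, mul_assoc]

theorem nPart_mul_rep (g : G) : ((nPart N g : N) : G) * rep N g = g := by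
  simp [nPart]

variable [IsFreeGroup N]

/-- The Fox derivative with respect to the generator `x`, extended to `K[G]` by means of the
chosen coset representatives. -/
def foxD (x : IsFreeGroup.Generators N) : MonoidAlgebra K G →+ MonoidAlgebra K G :=
  (Finsupp.liftAddHom (fun g : G =>
    (AddMonoidHom.mulLeft (fox K N x (nPart N g))).comp (singleAddHom (rep N g)))).comp
    (coeffAddEquiv : MonoidAlgebra K G ≃+ (G →₀ K)).toAddMonoidHom

theorem foxD_single (x : IsFreeGroup.Generators N) (g : G) (k : K) :
    foxD K N x (single g k) = fox K N x (nPart N g) * single (rep N g) k := by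
  simp [foxD]

theorem foxD_sub_one_mul (x : IsFreeGroup.Generators N) (u : N) (α : MonoidAlgebra K G) :
    foxD K N x ((single (u : G) 1 - 1) * α) = fox K N x u * α := by
  induction α using MonoidAlgebra.induction_linear with
  | zero => simp
  | add a b ha hb => rw [mul_add, map_add, ha, hb, mul_add]
  | single g k =>
    rw [sub_mul, one_mul, single_mul_single, one_mul, map_sub, foxD_single, foxD_single,
      rep_mul_left, nPart_mul_left, fox_mul, add_mul, add_sub_cancel_right, mul_assoc,
      single_mul_single, one_mul, nPart_mul_rep]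

end Deriv

section Sigma

variable (K : Type*) [CommRing K] {G : Type u} [Group G] (N : Subgroup G) [N.Normal]
  [IsFreeGroup N]

/-- The map `a ↦ ∑ₓ (x - 1) * aₓ` on finitely supported families. -/
def sigma : (IsFreeGroup.Generators N →₀ MonoidAlgebra K G) →+ MonoidAlgebra K G :=
  Finsupp.liftAddHom (fun y =>
    AddMonoidHom.mulLeft (single ((IsFreeGroup.of y : N) : G) (1 : K) - 1))

theorem sigma_single (y : IsFreeGroup.Generators N) (γ : MonoidAlgebra K G) :
    sigma K N (Finsupp.single y γ) = (single ((IsFreeGroup.of y : N) : G) (1 : K) - 1) * γ := by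
  simp [sigma]

theorem sigma_eq_sum (a : IsFreeGroup.Generators N →₀ MonoidAlgebra K G) :
    sigma K N a = a.sum (fun y γ => (single ((IsFreeGroup.of y : N) : G) (1 : K) - 1) * γ) := by
  simp [sigma, Finsupp.liftAddHom_apply]

open Classical in
theorem foxD_sigma_mul (x : IsFreeGroup.Generators N)
    (a : IsFreeGroup.Generators N →₀ MonoidAlgebra K G) (β : MonoidAlgebra K G) :
    foxD K N x (sigma K N a * β) = a x * β := by
  induction a using Finsupp.induction_linear with
  | zero => simp
  | add a b ha hb => rw [map_add, add_mul, map_add, ha, hb, Finsupp.add_apply, add_mul]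
  | single y γ =>
    rw [sigma_single, mul_assoc, foxD_sub_one_mul, fox_of, Finsupp.single_apply]
    split_ifs <;> simp

theorem sub_one_mem_kerAdd (u : N) :
    single (u : G) (1 : K) - 1 ∈ kerAdd K (QuotientGroup.mk' N) := by
  change mapDomainRingHom K (QuotientGroup.mk' N) _ = 0
  rw [map_sub, map_one, mapDomainRingHom_apply, mapDomain_single]
  have h : (QuotientGroup.mk' N) (u : G) = 1 := (QuotientGroup.eq_one_iff (u : G)).mpr u.2
  rw [h, ← one_def, sub_self]

theorem sub_one_mul_mem_range (u : N) (β : MonoidAlgebra K G) :
    (single (u : G) (1 : K) - 1) * β ∈ AddMonoidHom.mrange (sigma K N) := by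
  let S : Subgroup N :=
    { carrier := {u | ∀ β : MonoidAlgebra K G,
        (single (u : G) (1 : K) - 1) * β ∈ AddMonoidHom.mrange (sigma K N)}
      mul_mem' := by
        intro u v hu hv β
        have e : (single ((u * v : N) : G) (1 : K) - 1) * β
            = (single (u : G) (1 : K) - 1) * (single (v : G) 1 * β)
              + (single (v : G) (1 : K) - 1) * β := by
          have e1 : single ((u * v : N) : G) (1 : K) = single (u : G) 1 * single (v : G) 1 := by
            rw [single_mul_single, mul_one, Subgroup.coe_mul]
          rw [e1]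
          noncomm_ring
        rw [e]
        exact AddSubmonoid.add_mem _ (hu _) (hv _)
      one_mem' := by
        intro β
        have e : (single ((1 : N) : G) (1 : K) - 1) * β = 0 := by
          rw [Subgroup.coe_one, ← one_def, sub_self, zero_mul]
        rw [e]
        exact AddSubmonoid.zero_mem _
      inv_mem' := by
        intro u hu β
        have e : (single ((u⁻¹ : N) : G) (1 : K) - 1) * β
            = (single (u : G) (1 : K) - 1) * (-(single ((u : G)⁻¹) 1 * β)) := by
          have e1 : single (u : G) (1 : K) * (single ((u : G)⁻¹) 1 * β) = β := by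
            rw [← mul_assoc, single_mul_single, mul_one, mul_inv_cancel, ← one_def, one_mul]
          rw [Subgroup.coe_inv, sub_mul, sub_mul, mul_neg, mul_neg, e1, one_mul, one_mul]
          abel
        rw [e]
        exact hu _ }
  have hgen : ∀ y : IsFreeGroup.Generators N, IsFreeGroup.of y ∈ S := by
    intro y β
    exact ⟨Finsupp.single y β, sigma_single K N y β⟩
  let f : N →* S := IsFreeGroup.lift (fun y => ⟨IsFreeGroup.of y, hgen y⟩)
  have hf : S.subtype.comp f = MonoidHom.id N := by
    apply IsFreeGroup.ext_hom
    intro y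
    simp [f]
  have hu : u ∈ S := by
    have h1 := DFunLike.congr_fun hf u
    simp only [MonoidHom.coe_comp, Subgroup.coe_subtype, Function.comp_apply,
      MonoidHom.id_apply] at h1
    rw [← h1]
    exact (f u).2
  exact hu β

theorem kerAdd_le_range : kerAdd K (QuotientGroup.mk' N) ≤ AddMonoidHom.mrange (sigma K N) := by
  refine le_trans (kerAdd_le_closure _) ?_
  rw [AddSubmonoid.closure_le]
  rintro _ ⟨g, g', r, hgg, rfl⟩
  have h1 : g⁻¹ * g' ∈ N := QuotientGroup.eq.mp hgg
  have h2 : g * g'⁻¹ ∈ N := by
    have h3 := Subgroup.Normal.conj_mem inferInstance _ (N.inv_mem h1) g'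
    simpa [mul_assoc] using h3
  have e : single g r - single g' r
      = (single ((⟨g * g'⁻¹, h2⟩ : N) : G) (1 : K) - 1) * single g' r := by
    rw [sub_mul, one_mul, single_mul_single, one_mul, inv_mul_cancel_right]
  rw [e]
  exact sub_one_mul_mem_range K N _ _

/-- One step of the reduction: an element that is not in a power of the kernel can be replaced,
as a left factor of a vanishing product, by an element outside the kernel. -/
theorem exists_reduction (m : ℕ) (α : MonoidAlgebra K G)
    (hα : α ∉ kerAdd K (QuotientGroup.mk' N) ^ (m + 1)) :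
    ∃ α' : MonoidAlgebra K G, α' ∉ kerAdd K (QuotientGroup.mk' N) ∧
      ∀ β : MonoidAlgebra K G, α * β = 0 → α' * β = 0 := by
  induction m generalizing α with
  | zero => exact ⟨α, by simpa using hα, fun β h => h⟩
  | succ m ih =>
    by_cases hI : α ∈ kerAdd K (QuotientGroup.mk' N)
    · obtain ⟨a, rfl⟩ := kerAdd_le_range K N hI
      have hex : ∃ x, a x ∉ kerAdd K (QuotientGroup.mk' N) ^ (m + 1) := by
        by_contra hall
        push Not at hall
        apply hα
        rw [pow_succ', sigma_eq_sum, Finsupp.sum]
        exact AddSubmonoid.sum_mem _ (fun y _ =>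
          AddSubmonoid.mul_mem_mul (sub_one_mem_kerAdd K N _) (hall y))
      obtain ⟨x, hx⟩ := hex
      obtain ⟨α', hα', hred⟩ := ih (a x) hx
      refine ⟨α', hα', fun β hβ => hred β ?_⟩
      have h1 := foxD_sigma_mul K N x a β
      rw [hβ, map_zero] at h1
      exact h1.symm
    · exact ⟨α, hI, fun β h => h⟩

end Sigma

section InvMap

variable (K : Type*) [CommRing K] {G : Type*} [Group G]

/-- The additive map of `K[G]` induced by inversion in `G`. -/
def invMap : MonoidAlgebra K G ≃+ MonoidAlgebra K G := mapDomainAddEquiv K (Equiv.inv G)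

theorem invMap_single (g : G) (k : K) : invMap K (single g k) = single g⁻¹ k := by
  simp [invMap, mapDomainAddEquiv]

theorem invMap_mul (α β : MonoidAlgebra K G) :
    invMap K (α * β) = invMap K β * invMap K α := by
  induction α using MonoidAlgebra.induction_linear with
  | zero => simp
  | add a b ha hb => rw [add_mul, map_add, ha, hb, map_add, mul_add]
  | single g k =>
    induction β using MonoidAlgebra.induction_linear with
    | zero => simp
    | add a b ha hb => rw [mul_add, map_add, ha, hb, map_add, add_mul]
    | single h l =>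
      rw [single_mul_single, invMap_single, invMap_single, invMap_single, single_mul_single,
        mul_inv_rev, mul_comm k l]

theorem invMap_map {Q : Type*} [Group Q] (φ : G →* Q) (α : MonoidAlgebra K G) :
    mapDomain φ (invMap K α) = invMap K (mapDomain φ α) := by
  induction α using MonoidAlgebra.induction_linear with
  | zero => simp
  | add a b ha hb => rw [map_add, mapDomain_add, ha, hb, mapDomain_add, map_add]
  | single g k => rw [invMap_single, mapDomain_single, mapDomain_single, invMap_single, map_inv]

end InvMap

section Main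

variable {K : Type*} [CommRing K] {G : Type u} [Group G]

/-- If `N` is a free normal subgroup of `G`, the powers of the kernel of `K[G] → K[G ⧸ N]` have
zero intersection and `K[G ⧸ N]` has no zero divisors, then `K[G]` has no zero divisors. -/
theorem eq_zero_or_eq_zero_of_free_kernel (N : Subgroup G) [N.Normal] [IsFreeGroup N]
    (hinter : ∀ x : MonoidAlgebra K G,
      (∀ m : ℕ, x ∈ kerAdd K (QuotientGroup.mk' N) ^ (m + 1)) → x = 0)
    (hQ : ∀ a b : MonoidAlgebra K (G ⧸ N), a * b = 0 → a = 0 ∨ b = 0)
    (α β : MonoidAlgebra K G) (h : α * β = 0) : α = 0 ∨ β = 0 := by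
  by_contra hne
  push Not at hne
  obtain ⟨hα, hβ⟩ := hne
  obtain ⟨m, hm⟩ : ∃ m, α ∉ kerAdd K (QuotientGroup.mk' N) ^ (m + 1) := by
    by_contra hall
    push Not at hall
    exact hα (hinter α hall)
  obtain ⟨α', hα', hred⟩ := exists_reduction K N m α hm
  have h2 : α' * β = 0 := hred β h
  have h3 : invMap K β * invMap K α' = 0 := by rw [← invMap_mul, h2, map_zero]
  have hβ' : invMap K β ≠ 0 := fun h0 => hβ ((AddEquiv.map_eq_zero_iff (invMap K)).mp h0)
  obtain ⟨n, hn⟩ : ∃ n, invMap K β ∉ kerAdd K (QuotientGroup.mk' N) ^ (n + 1) := by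
    by_contra hall
    push Not at hall
    exact hβ' (hinter _ hall)
  obtain ⟨β', hβ'', hred'⟩ := exists_reduction K N n _ hn
  have h4 : β' * invMap K α' = 0 := hred' _ h3
  have h5 : mapDomainRingHom K (QuotientGroup.mk' N) β'
      * mapDomainRingHom K (QuotientGroup.mk' N) (invMap K α') = 0 := by
    rw [← map_mul, h4, map_zero]
  rcases hQ _ _ h5 with h6 | h6
  · exact hβ'' h6
  · apply hα'
    rw [mem_kerAdd]
    rw [mapDomainRingHom_apply, invMap_map] at h6
    exact (AddEquiv.map_eq_zero_iff (invMap K)).mp h6

/-- Characteristic `p`: zero divisors and free normal subgroups. -/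
theorem eq_zero_or_eq_zero_of_free_kernel_charP (p : ℕ) [Fact p.Prime] [CharP K p]
    (N : Subgroup G) [N.Normal] [IsFreeGroup N]
    (hQ : ∀ a b : MonoidAlgebra K (G ⧸ N), a * b = 0 → a = 0 ∨ b = 0)
    (α β : MonoidAlgebra K G) (h : α * β = 0) : α = 0 ∨ β = 0 := by
  have hres : ResP p (QuotientGroup.mk' N).ker :=
    resP_of_mulEquiv p (MulEquiv.subgroupCongr (QuotientGroup.ker_mk' N)) (resP_of_isFreeGroup p N)
  exact eq_zero_or_eq_zero_of_free_kernel N
    (eq_zero_of_forall_mem_kerAdd_pow (K := K) p _ hres) hQ α β h

end Main

end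

end Vale.Agent.Lib.P201
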