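import Vale.Agent.Lib.P201.FoxKernel

/-!
# Characteristic zero: the powers of the kernel have zero intersection

For a free normal subgroup `N` of `G`, membership of `α` in the `(m+2)`-th power of the kernel `I`
of `K[G] → K[G ⧸ N]` is equivalent to `α ∈ I` and `∂ₓ α ∈ I ^ (m+1)` for all generators `x`.
Since the Fox derivatives are given by integral formulas, membership in powers of `I` is
compatible with additive maps of the coefficients.  This transfers the vanishing of the
intersection of the powers of `I` from the prime fields to `ℤ`, to `ℚ` and to all fields of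
characteristic zero.
-/

namespace Vale.Agent.Lib.P201

open MonoidAlgebra Vale.Agent.Lib.P194
open scoped Pointwise

universe u

noncomputable section

section Induction

variable {G : Type u} [Group G] (N : Subgroup G) [IsFreeGroup N]

/-- Induction over a free group: a property of elements that holds for `1` and the free
generators and is stable under products and inverses holds everywhere. -/
theorem free_induction (P : N → Prop) (h1 : P 1) (hmul : ∀ u v, P u → P v → P (u * v))
    (hinv : ∀ u, P u → P u⁻¹) (hgen : ∀ y : IsFreeGroup.Generators N, P (IsFreeGroup.of y))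
    (u : N) : P u := by
  let S : Subgroup N :=
    { carrier := {u | P u}
      mul_mem' := fun hu hv => hmul _ _ hu hv
      one_mem' := h1
      inv_mem' := fun hu => hinv _ hu }
  let f : N →* S := IsFreeGroup.lift (fun y => ⟨IsFreeGroup.of y, hgen y⟩)
  have hf : S.subtype.comp f = MonoidHom.id N := by
    apply IsFreeGroup.ext_hom
    intro y
    simp [f]
  have h2 := DFunLike.congr_fun hf u
  simp only [MonoidHom.coe_comp, Subgroup.coe_subtype, Function.comp_apply,
    MonoidHom.id_apply] at h2
  rw [← h2]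
  exact (f u).2

end Induction

section MapCoeff

variable {K L : Type*} [CommRing K] [CommRing L] {G : Type*} [Group G]

/-- The additive map of group algebras induced by an additive map of the coefficients. -/
def mapCoeff (l : K →+ L) : MonoidAlgebra K G →+ MonoidAlgebra L G :=
  (coeffAddEquiv (R := L) (M := G)).symm.toAddMonoidHom.comp
    ((Finsupp.mapRange.addMonoidHom l).comp (coeffAddEquiv (R := K) (M := G)).toAddMonoidHom)

theorem mapCoeff_coeff (l : K →+ L) (α : MonoidAlgebra K G) (g : G) :
    (mapCoeff l α).coeff g = l (α.coeff g) := by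
  simp [mapCoeff]

theorem mapCoeff_single (l : K →+ L) (g : G) (k : K) :
    mapCoeff l (single g k : MonoidAlgebra K G) = single g (l k) := by
  ext h
  rw [mapCoeff_coeff]
  classical
  simp only [coeff_single, Finsupp.single_apply]
  split_ifs <;> simp

theorem mapCoeff_mapDomain {Q : Type*} [Group Q] (l : K →+ L) (φ : G →* Q)
    (α : MonoidAlgebra K G) :
    mapDomain φ (mapCoeff l α) = mapCoeff l (mapDomain φ α) := by
  induction α using MonoidAlgebra.induction_linear with
  | zero => simp
  | add a b ha hb => rw [map_add, mapDomain_add, ha, hb, mapDomain_add, map_add]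
  | single g k => rw [mapCoeff_single, mapDomain_single, mapDomain_single, mapCoeff_single]

theorem mapCoeff_injective (l : K →+ L) (hl : Function.Injective l) :
    Function.Injective (mapCoeff l : MonoidAlgebra K G → MonoidAlgebra L G) := by
  intro a b hab
  ext g
  apply hl
  rw [← mapCoeff_coeff, ← mapCoeff_coeff, hab]

end MapCoeff

section Ideal

variable {K : Type*} [CommRing K] {G Q : Type*} [Group G] [Group Q] (φ : G →* Q)

theorem mul_mem_kerAdd_right (ι : MonoidAlgebra K G) (hι : ι ∈ kerAdd K φ)
    (a : MonoidAlgebra K G) : ι * a ∈ kerAdd K φ := by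
  change mapDomainRingHom K φ (ι * a) = 0
  have h : mapDomainRingHom K φ ι = 0 := hι
  rw [map_mul, h, zero_mul]

theorem mul_mem_kerAdd_left (a : MonoidAlgebra K G) (κ : MonoidAlgebra K G)
    (hκ : κ ∈ kerAdd K φ) : a * κ ∈ kerAdd K φ := by
  change mapDomainRingHom K φ (a * κ) = 0
  have h : mapDomainRingHom K φ κ = 0 := hκ
  rw [map_mul, h, mul_zero]

theorem kerAdd_pow_le (m : ℕ) : kerAdd K φ ^ (m + 1) ≤ kerAdd K φ := by
  induction m with
  | zero => rw [zero_add, pow_one]
  | succ m ih =>
    rw [pow_succ', AddSubmonoid.mul_le]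
    intro ι hι κ _
    exact mul_mem_kerAdd_right φ ι hι κ

theorem mul_mem_kerAdd_pow (m : ℕ) (a : MonoidAlgebra K G) (κ : MonoidAlgebra K G)
    (hκ : κ ∈ kerAdd K φ ^ (m + 1)) : a * κ ∈ kerAdd K φ ^ (m + 1) := by
  cases m with
  | zero =>
    rw [zero_add, pow_one] at hκ ⊢
    exact mul_mem_kerAdd_left φ a κ hκ
  | succ m =>
    rw [pow_succ'] at hκ ⊢
    refine AddSubmonoid.mul_induction_on hκ (fun ι hι κ' hκ' => ?_) (fun x y hx hy => ?_)
    · rw [← mul_assoc]
      exact AddSubmonoid.mul_mem_mul (mul_mem_kerAdd_left φ a ι hι) hκ'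
    · rw [mul_add]
      exact AddSubmonoid.add_mem _ hx hy

end Ideal

section Transfer

variable {K L : Type*} [CommRing K] [CommRing L] {G : Type u} [Group G] (N : Subgroup G)
  [N.Normal] [IsFreeGroup N]

theorem fox_one (x : IsFreeGroup.Generators N) : fox K N x 1 = 0 := by
  unfold fox
  rw [map_one]
  rfl

theorem fox_inv (x : IsFreeGroup.Generators N) (u : N) :
    fox K N x u⁻¹ = -(fox K N x u * single ((u : G)⁻¹) 1) := by
  unfold fox
  rw [map_inv, FoxPair.inv_snd, foxHom_fst]

theorem mapCoeff_fox_mul_single (l : K →+ L) (x : IsFreeGroup.Generators N) (u : N) :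
    ∀ (r : G) (k : K), mapCoeff l (fox K N x u * single r k) = fox L N x u * single r (l k) := by
  refine free_induction N
    (fun u => ∀ (r : G) (k : K),
      mapCoeff l (fox K N x u * single r k) = fox L N x u * single r (l k)) ?_ ?_ ?_ ?_ u
  · intro r k
    rw [fox_one, fox_one, zero_mul, zero_mul, map_zero]
  · intro u v hu hv r k
    rw [fox_mul, fox_mul, add_mul, add_mul, mul_assoc, mul_assoc, single_mul_single,
      single_mul_single, one_mul, one_mul, map_add, hu, hv]
  · intro u hu r k
    rw [fox_inv, fox_inv, neg_mul, neg_mul, mul_assoc, mul_assoc, single_mul_single,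
      single_mul_single, one_mul, one_mul, map_neg, hu]
  · intro y r k
    classical
    rw [fox_of, fox_of]
    split_ifs
    · rw [one_mul, one_mul, mapCoeff_single]
    · rw [zero_mul, zero_mul, map_zero]

theorem mapCoeff_foxD (l : K →+ L) (x : IsFreeGroup.Generators N) (α : MonoidAlgebra K G) :
    mapCoeff l (foxD K N x α) = foxD L N x (mapCoeff l α) := by
  induction α using MonoidAlgebra.induction_linear with
  | zero => simp
  | add a b ha hb => rw [map_add, map_add, ha, hb, map_add, map_add]
  | single g k => rw [foxD_single, mapCoeff_fox_mul_single, mapCoeff_single, foxD_single]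

theorem foxD_sigma (x : IsFreeGroup.Generators N)
    (a : IsFreeGroup.Generators N →₀ MonoidAlgebra K G) :
    foxD K N x (sigma K N a) = a x := by
  have h := foxD_sigma_mul K N x a 1
  rwa [mul_one, mul_one] at h

theorem foxD_mem_pow (m : ℕ) (α : MonoidAlgebra K G)
    (hα : α ∈ kerAdd K (QuotientGroup.mk' N) ^ (m + 2)) (x : IsFreeGroup.Generators N) :
    foxD K N x α ∈ kerAdd K (QuotientGroup.mk' N) ^ (m + 1) := by
  rw [pow_succ'] at hα
  refine AddSubmonoid.mul_induction_on hα (fun ι hι κ hκ => ?_) (fun a b ha hb => ?_)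
  · obtain ⟨a, rfl⟩ := kerAdd_le_range K N hι
    rw [foxD_sigma_mul]
    exact mul_mem_kerAdd_pow _ m _ _ hκ
  · rw [map_add]
    exact AddSubmonoid.add_mem _ ha hb

theorem mem_pow_of_foxD (m : ℕ) (α : MonoidAlgebra K G)
    (hα : α ∈ kerAdd K (QuotientGroup.mk' N))
    (h : ∀ x : IsFreeGroup.Generators N,
      foxD K N x α ∈ kerAdd K (QuotientGroup.mk' N) ^ (m + 1)) :
    α ∈ kerAdd K (QuotientGroup.mk' N) ^ (m + 2) := by
  obtain ⟨a, rfl⟩ := kerAdd_le_range K N hα
  rw [pow_succ', sigma_eq_sum, Finsupp.sum]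
  refine AddSubmonoid.sum_mem _ (fun y _ =>
    AddSubmonoid.mul_mem_mul (sub_one_mem_kerAdd K N _) ?_)
  have h1 := h y
  rwa [foxD_sigma] at h1

/-- Additive maps of the coefficients preserve membership in the powers of the kernel. -/
theorem mapCoeff_mem_pow (l : K →+ L) (m : ℕ) :
    ∀ α : MonoidAlgebra K G, α ∈ kerAdd K (QuotientGroup.mk' N) ^ (m + 1) →
      mapCoeff l α ∈ kerAdd L (QuotientGroup.mk' N) ^ (m + 1) := by
  have base : ∀ α : MonoidAlgebra K G, α ∈ kerAdd K (QuotientGroup.mk' N) →
      mapCoeff l α ∈ kerAdd L (QuotientGroup.mk' N) := by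
    intro α hα
    rw [mem_kerAdd] at hα ⊢
    rw [mapCoeff_mapDomain, hα, map_zero]
  induction m with
  | zero =>
    intro α hα
    rw [zero_add, pow_one] at hα ⊢
    exact base α hα
  | succ m ih =>
    intro α hα
    refine mem_pow_of_foxD N m _ (base α (kerAdd_pow_le _ _ hα)) (fun x => ?_)
    rw [← mapCoeff_foxD]
    exact ih _ (foxD_mem_pow N m α hα x)

/-- Injective additive maps of the coefficients reflect membership in the powers of the
kernel. -/
theorem mem_pow_of_mapCoeff (l : K →+ L) (hl : Function.Injective l) (m : ℕ) :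
    ∀ α : MonoidAlgebra K G, mapCoeff l α ∈ kerAdd L (QuotientGroup.mk' N) ^ (m + 1) →
      α ∈ kerAdd K (QuotientGroup.mk' N) ^ (m + 1) := by
  have base : ∀ α : MonoidAlgebra K G, mapCoeff l α ∈ kerAdd L (QuotientGroup.mk' N) →
      α ∈ kerAdd K (QuotientGroup.mk' N) := by
    intro α hα
    rw [mem_kerAdd] at hα ⊢
    rw [mapCoeff_mapDomain] at hα
    apply mapCoeff_injective l hl
    rw [hα, map_zero]
  induction m with
  | zero =>
    intro α hα
    rw [zero_add, pow_one] at hα ⊢
    exact base α hα
  | succ m ih =>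
    intro α hα
    refine mem_pow_of_foxD N m _ (base α (kerAdd_pow_le _ _ hα)) (fun x => ?_)
    apply ih
    rw [mapCoeff_foxD]
    exact foxD_mem_pow N m _ hα x

end Transfer

section Zero

variable {G : Type u} [Group G] (N : Subgroup G) [N.Normal] [IsFreeGroup N]

/-- Characteristic `p`: the powers of the kernel have zero intersection. -/
theorem inter_eq_zero_charP (p : ℕ) [Fact p.Prime] {K : Type*} [CommRing K] [CharP K p]
    (x : MonoidAlgebra K G)
    (hx : ∀ m : ℕ, x ∈ kerAdd K (QuotientGroup.mk' N) ^ (m + 1)) : x = 0 :=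
  eq_zero_of_forall_mem_kerAdd_pow (K := K) p _
    (resP_of_mulEquiv p (MulEquiv.subgroupCongr (QuotientGroup.ker_mk' N))
      (resP_of_isFreeGroup p N)) x hx

/-- Integer coefficients: the powers of the kernel have zero intersection. -/
theorem inter_eq_zero_int (z : MonoidAlgebra ℤ G)
    (hz : ∀ m : ℕ, z ∈ kerAdd ℤ (QuotientGroup.mk' N) ^ (m + 1)) : z = 0 := by
  ext g
  obtain ⟨p, hp1, hp⟩ := Nat.exists_infinite_primes ((z.coeff g).natAbs + 1)
  have hfact : Fact p.Prime := ⟨hp⟩
  have h0 : mapCoeff (Int.castAddHom (ZMod p)) z = 0 :=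
    inter_eq_zero_charP N p _ (fun m => mapCoeff_mem_pow N _ m z (hz m))
  have h1 : ((z.coeff g : ℤ) : ZMod p) = 0 := by
    have h := congrArg (fun w => w.coeff g) h0
    simpa [mapCoeff_coeff] using h
  have h2 : (p : ℤ) ∣ z.coeff g := (ZMod.intCast_zmod_eq_zero_iff_dvd _ p).mp h1
  have h3 : |z.coeff g| < (p : ℤ) := by
    have h4 : ((z.coeff g).natAbs : ℤ) < p := by exact_mod_cast (Nat.lt_of_succ_le hp1)
    rwa [Int.natCast_natAbs] at h4
  simpa using Int.eq_zero_of_abs_lt_dvd h2 h3

/-- Rational coefficients: the powers of the kernel have zero intersection. -/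
theorem inter_eq_zero_rat (β : MonoidAlgebra ℚ G)
    (hβ : ∀ m : ℕ, β ∈ kerAdd ℚ (QuotientGroup.mk' N) ^ (m + 1)) : β = 0 := by
  classical
  obtain ⟨n, hn⟩ : ∃ n : ℕ, n = ∏ h ∈ β.coeff.support, (β.coeff h).den := ⟨_, rfl⟩
  have hn0 : n ≠ 0 := by
    rw [hn]
    exact Finset.prod_ne_zero_iff.mpr (fun h _ => (β.coeff h).den_nz)
  have hβsum : β = ∑ g ∈ β.coeff.support, single g (β.coeff g) := by
    conv_lhs => rw [← sum_coeff_single β]
    rfl
  have e : n • β = ∑ g ∈ β.coeff.support, single g (n • β.coeff g) := by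
    conv_lhs => rw [hβsum]
    rw [Finset.smul_sum]
    exact Finset.sum_congr rfl (fun g _ => smul_single _ _ _)
  have hz : mapCoeff (Int.castAddHom ℚ)
      (∑ g ∈ β.coeff.support, single g
        ((∏ h ∈ β.coeff.support.erase g, ((β.coeff h).den : ℤ)) * (β.coeff g).num))
      = n • β := by
    rw [map_sum, e]
    refine Finset.sum_congr rfl (fun g hg => ?_)
    rw [mapCoeff_single]
    congr 1
    change (((∏ h ∈ β.coeff.support.erase g, ((β.coeff h).den : ℤ)) * (β.coeff g).num : ℤ) : ℚ)
      = n • β.coeff g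
    rw [nsmul_eq_mul, hn, ← Finset.mul_prod_erase _ _ hg]
    push_cast
    rw [mul_comm ((β.coeff g).den : ℚ), mul_assoc, mul_comm ((β.coeff g).den : ℚ),
      Rat.mul_den_eq_num]
  have hz0 : (∑ g ∈ β.coeff.support, single g
        ((∏ h ∈ β.coeff.support.erase g, ((β.coeff h).den : ℤ)) * (β.coeff g).num)
        : MonoidAlgebra ℤ G) = 0 := by
    apply inter_eq_zero_int N
    intro m
    apply mem_pow_of_mapCoeff N (Int.castAddHom ℚ) Int.cast_injective m
    rw [hz]
    exact AddSubmonoid.nsmul_mem _ (hβ m) _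
  rw [hz0, map_zero] at hz
  ext g
  have h1 : (n • β).coeff g = 0 := by
    rw [← hz]
    rfl
  rw [coeff_smul, Finsupp.smul_apply, nsmul_eq_mul] at h1
  rcases mul_eq_zero.mp h1 with h2 | h2
  · exact absurd (by exact_mod_cast h2) hn0
  · simpa using h2

/-- Fields of characteristic zero: the powers of the kernel have zero intersection. -/
theorem inter_eq_zero_charZero {K : Type*} [Field K] [CharZero K] (α : MonoidAlgebra K G)
    (hα : ∀ m : ℕ, α ∈ kerAdd K (QuotientGroup.mk' N) ^ (m + 1)) : α = 0 := by
  ext g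
  by_contra hg
  have hg' : α.coeff g ≠ 0 := hg
  obtain ⟨l, hl⟩ := Module.Projective.exists_dual_ne_zero ℚ hg'
  have h0 : mapCoeff l.toAddMonoidHom α = 0 :=
    inter_eq_zero_rat N _ (fun m => mapCoeff_mem_pow N _ m α (hα m))
  have h1 := congrArg (fun w => w.coeff g) h0
  simp only [mapCoeff_coeff, LinearMap.toAddMonoidHom_coe, coeff_zero, Finsupp.coe_zero,
    Pi.zero_apply] at h1
  exact hl h1

/-- If `N` is a free normal subgroup of `G`, `K` is a field and `K[G ⧸ N]` has no zero
divisors, then `K[G]` has no zero divisors. -/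
theorem eq_zero_or_eq_zero_of_free_kernel_field {K : Type*} [Field K]
    (hQ : ∀ a b : MonoidAlgebra K (G ⧸ N), a * b = 0 → a = 0 ∨ b = 0)
    (α β : MonoidAlgebra K G) (h : α * β = 0) : α = 0 ∨ β = 0 := by
  obtain ⟨p, hp⟩ := CharP.exists K
  rcases CharP.char_is_prime_or_zero K p with hpr | rfl
  · have hfact : Fact p.Prime := ⟨hpr⟩
    exact eq_zero_or_eq_zero_of_free_kernel_charP p N hQ α β h
  · have hzero : CharZero K := CharP.charP_to_charZero K
    exact eq_zero_or_eq_zero_of_free_kernel N (inter_eq_zero_charZero N) hQ α β h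

end Zero

end

end Vale.Agent.Lib.P201
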